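import Vale.Agent.P322.Main

namespace Vale.Agent.Results.P322.Odd

open Vale.Agent.P322

theorem result (n : ℕ) (f : (Fin n → Bool) → Bool) (hf : ∀ x, f (fun i => !x i) = !f x)
    (ε : ℝ) (h0 : 0 ≤ ε) (h1 : ε ≤ 1 / 2) : mutInfo (joint f ε) ≤ 1 - h2 ε :=
  main f (fun _ => Finset.univ) (fun _ _ _ => rfl) (by simpa using hf) h0 h1

end Vale.Agent.Results.P322.Odd
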