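import Vale.Agent.P322.Main

namespace Vale.Agent.Results.P322.Subcube

open Vale.Agent.P322

theorem result (n : ℕ) (f : (Fin n → Bool) → Bool) (J : (Fin n → Bool) → Finset (Fin n))
    (hJ : ∀ x x' : Fin n → Bool, (∀ i ∉ J x, x' i = x i) → J x' = J x)
    (hf : ∀ x, f (fun i => if i ∈ J x then !x i else x i) = !f x)
    (ε : ℝ) (h0 : 0 ≤ ε) (h1 : ε ≤ 1 / 2) : mutInfo (joint f ε) ≤ 1 - h2 ε :=
  main f J hJ hf h0 h1

end Vale.Agent.Results.P322.Subcube
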